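import Crest.Agent.N233.Dv.Pt

-- ▼ part N233/Dv/Sig
section

/-!
# Row 233 (helper43): the Davis complex is contractible (explicit truncation along the depth of walls)
-/

set_option autoImplicit false
open Set Filter Topology unitInterval

noncomputable section

namespace Crest.Agent.N233.Dv

open Crest.Agent.N255.Ra

variable {S : Type} {Γ : SimpleGraph S}

/-- the Davis complex -/
def Sig (Γ : SimpleGraph S) : Set (LI (W Γ)) := {z | ∃ u, ∃ y ∈ Kc Γ, z = pt u y}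

/-- the cube with top vertex `u` -/
def D (u : W Γ) (z : W Γ → ℝ) : Prop :=
  (∀ r, |z r| ≤ 1) ∧ (∀ r, r ∉ N u → z r = 1) ∧
    ∀ r ∈ N u, z r = -1 ∨ ∃ s ∈ In u, r = u * gen Γ s * u⁻¹

variable {u r : W Γ} {y : LI S}

theorem exists_D {z : LI (W Γ)} (h : z ∈ Sig Γ) : ∃ u, D u z := by
  classical
  obtain ⟨u, y, hy, rfl⟩ := h
  let τ := hy.1.2.1.toFinset
  have hτ : (τ : Set S) = {s | y s ≠ 0} := Finite.coe_toFinset _
  have hc : Γ.IsClique (τ : Set S) := hτ ▸ hy.1.2.2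
  have h1 : (top u τ)⁻¹ * u ∈ WT Γ {s | y s ≠ 0} := by
    rw [← hτ]; simpa using inv_mem (top_mem u τ)
  obtain ⟨y', h2, h3, h4, -⟩ := unfold hy h1
  have h5 := pt_mul_congr (top u τ) h4
  rw [mul_one, mul_inv_cancel_left] at h5
  have h6 : ∀ r, ex y' ((top u τ)⁻¹ * r * top u τ) ≠ 0 →
      ∃ s ∈ In (top u τ), r = top u τ * gen Γ s * (top u τ)⁻¹ := fun r h => by
    obtain ⟨s, hs, e⟩ := mem_of_ex h
    exact ⟨s, mem_In_top hc (by rw [← Finset.mem_coe, hτ]; exact h3 s hs), conj_iff.1 e.symm⟩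
  refine ⟨top u τ, fun r => ?_, fun r hr => ?_, fun r hr => ?_⟩ <;> rw [← h5, pt_apply]
  · rw [abs_mul, abs_sg, one_mul]
    rcases ex_ind ((top u τ)⁻¹ * r * top u τ) with ⟨s, e⟩ | ⟨-, e⟩
    · rw [e, ex_gen, abs_le]; constructor <;> linarith [h2 s]
    · simp [e]
  · by_cases h : ex y' ((top u τ)⁻¹ * r * top u τ) = 0
    · simp [h, sg_nmem hr]
    · obtain ⟨s, hs, rfl⟩ := h6 r h
      exact absurd (last_mem_N.2 hs) hr
  · by_cases h : ex y' ((top u τ)⁻¹ * r * top u τ) = 0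
    · simp [h, sg_mem hr]
    · exact Or.inr (h6 r h)

theorem D.mem {z : LI (W Γ)} (h : D u z) : z ∈ Sig Γ := by
  classical
  have b : ∀ s, 0 ≤ (if s ∈ In u then 1 + z (u * gen Γ s * u⁻¹) else 0) ∧
      (if s ∈ In u then 1 + z (u * gen Γ s * u⁻¹) else 0) ≤ 2 := fun s => by
    have := abs_le.1 (h.1 (u * gen Γ s * u⁻¹))
    split_ifs
    · constructor <;> linarith
    · norm_num
  let y : LI S := mkL _ 2 fun s => (abs_of_nonneg (b s).1).trans_le (b s).2
  have hy : y ∈ Cone (Fl Γ) := ⟨fun s => (b s).1, Fl.mono ⟨In_finite u, In_clique u⟩ fun s hs => by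
    by_contra e
    exact hs (if_neg e)⟩
  obtain ⟨w, hw⟩ := fold hy
  refine ⟨u * w, fld y, fld_mem hy fun s => (b s).2, ?_⟩
  rw [← pt_mul_congr u hw, mul_one]
  refine li_ext fun r => ?_
  rw [pt_apply]
  rcases ex_ind (u⁻¹ * r * u) with ⟨s, e⟩ | ⟨h1, e⟩
  · rw [e, ex_gen, conj_iff.1 e]
    by_cases hs : s ∈ In u
    · rw [sg_mem (last_mem_N.2 hs)]; simp [y, hs]
    · rw [sg_nmem (mt last_mem_N.1 hs), h.2.1 _ (mt last_mem_N.1 hs)]; simp [y, hs]
  · rw [e]
    by_cases hr : r ∈ N u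
    · rcases h.2.2 r hr with h2 | ⟨s, -, h2⟩
      · simp [h2, sg_mem hr]
      · exact absurd (conj_iff.2 h2).symm (h1 s)
    · simp [h.2.1 r hr, sg_nmem hr]

/-- truncation -/
def trf (T : ℝ) (z : W Γ → ℝ) (r : W Γ) : ℝ := max (z r) (1 - 2 * max 0 (T - dep r))

theorem trf_one {z : W Γ → ℝ} (T : ℝ) (h : z r = 1) : trf T z r = 1 := by
  rw [trf, h, max_eq_left]; linarith [le_max_left 0 (T - dep r)]

theorem trf_of_le {z : W Γ → ℝ} {T : ℝ} (h : |z r| ≤ 1) (h' : T ≤ dep r) : trf T z r = 1 := by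
  rw [trf, max_eq_left (by linarith : T - dep r ≤ 0), mul_zero, sub_zero, max_eq_right (abs_le.1 h).2]

theorem trf_of_ge {z : W Γ → ℝ} {T : ℝ} (h : |z r| ≤ 1) (h' : dep r + 1 ≤ T) : trf T z r = z r := by
  rw [trf, max_eq_left]
  linarith [le_max_right 0 (T - dep r), (abs_le.1 h).1]

theorem D.trf (T : ℝ) {z : W Γ → ℝ} (h : D u z) : ∃ u', D u' (trf T z) := by
  classical
  induction hn : len u using Nat.strong_induction_on generalizing u z with
  | _ n ih =>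
  by_cases a : ∃ s ∈ In u, T ≤ dep (u * gen Γ s * u⁻¹)
  · obtain ⟨s, hs, hT⟩ := a
    have hl := len_mem hs
    have h1 : D (u * gen Γ s) (Function.update z (u * gen Γ s * u⁻¹) 1) := by
      refine ⟨fun r => ?_, fun r hr => ?_, fun r hr => ?_⟩ <;>
        by_cases e : r = u * gen Γ s * u⁻¹
      · simp [e]
      · rw [Function.update_of_ne e]; exact h.1 r
      · simp [e]
      · rw [Function.update_of_ne e]
        rw [mem_N_mul_gen] at hr
        exact h.2.1 r (by tauto)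
      · rw [mem_N_mul_gen, e, last_mem_N] at hr
        tauto
      · rw [Function.update_of_ne e]
        rw [mem_N_mul_gen] at hr
        refine (h.2.2 r (by tauto)).imp_right fun ⟨t, ht, e'⟩ => ?_
        have ad := In_clique u hs ht (by rintro rfl; exact e e')
        exact ⟨t, (mem_In_mul_adj ad).2 ht, by rw [last_mul_adj ad, e']⟩
    obtain ⟨u', h2⟩ := ih _ (by omega) h1 rfl
    refine ⟨u', ?_⟩
    convert h2 using 1
    funext r
    by_cases e : r = u * gen Γ s * u⁻¹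
    · rw [trf_one T (z := Function.update _ _ _) (by simp [e]), trf_of_le (h.1 r) (e ▸ hT)]
    · simp only [Dv.trf, Function.update_of_ne e]
  · push Not at a
    refine ⟨u, fun r => ?_, fun r hr => trf_one T (h.2.1 r hr), fun r hr => ?_⟩
    · have := abs_le.1 (h.1 r)
      refine abs_le.2 ⟨this.1.trans (le_max_left _ _), max_le this.2 ?_⟩
      linarith [le_max_left 0 (T - dep r)]
    · obtain ⟨s, hs, e | e⟩ := exists_last hr
      · exact Or.inr ⟨s, hs, e⟩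
      · have h1 : (dep r : ℝ) + 1 ≤ dep (u * gen Γ s * u⁻¹) := by exact_mod_cast e
        rw [trf_of_ge (h.1 r) (h1.trans (a s hs).le)]
        exact h.2.2 r hr

/-- truncation -/
def trc (T : ℝ) (z : LI (W Γ)) : LI (W Γ) := mkL (trf T z) (‖z‖ + 1) fun r => by
  have := abs_le.1 (abs_le_norm z r)
  refine abs_le.2 ⟨le_trans (by linarith) (le_max_left _ _), max_le (by linarith) ?_⟩
  linarith [le_max_left 0 (T - dep r), norm_nonneg z]

theorem continuous_trc : Continuous fun p : ℝ × LI (W Γ) => trc p.1 p.2 :=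
  (LipschitzWith.of_dist_le_mul (K := 2) fun p q => by
    rw [dist_eq_norm]
    refine norm_sub_le' (by positivity) fun r => (abs_max_sub_max_le_max _ _ _ _).trans (max_le ?_ ?_)
    · have h1 := sub_le_norm p.2 q.2 r
      have h2 : ‖p.2 - q.2‖ ≤ dist p q := by rw [← dist_eq_norm]; exact le_max_right _ _
      have := dist_nonneg (x := p) (y := q)
      push_cast; linarith
    · have h1 := abs_max_sub_max_le_max 0 (q.1 - dep r) 0 (p.1 - dep r)
      have h2 : |q.1 - p.1| ≤ dist p q := by rw [abs_sub_comm, ← Real.dist_eq]; exact le_max_left _ _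
      rw [sub_sub_sub_cancel_left, ← mul_sub, abs_mul, abs_two]
      rw [sub_self, abs_zero, sub_sub_sub_cancel_right, max_eq_right (abs_nonneg (q.1 - p.1))] at h1
      push_cast; linarith).continuous

theorem trc_mem (T : ℝ) {z : LI (W Γ)} (h : z ∈ Sig Γ) : trc T z ∈ Sig Γ := by
  obtain ⟨u, hu⟩ := exists_D h
  obtain ⟨u', h'⟩ := hu.trf T
  exact D.mem (z := trc T z) h'

theorem trc_one {z : LI (W Γ)} (h : z ∈ Sig Γ) : trc 1 z = pt 1 0 := li_ext fun r => by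
  obtain ⟨u, hu⟩ := exists_D h
  have e : pt (1 : W Γ) (0 : LI S) r = 1 := by
    have := abs_ex (0 : LI S) r
    rw [norm_zero, abs_nonpos_iff] at this
    rw [pt_one, this, sub_zero]
  rw [e]
  by_cases hr : r ∈ N u
  · exact trf_of_le (hu.1 r) (by exact_mod_cast dep_pos hr)
  · exact trf_one 1 (hu.2.1 r hr)

theorem trc_eq (hy : y ∈ Kc Γ) {T : ℝ} (h : len u + 2 ≤ T) : trc T (pt u y) = pt u y := li_ext fun r => by
  obtain ⟨u', hu⟩ := exists_D ⟨u, y, hy, rfl⟩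
  by_cases e : pt u y r = 1
  · exact (trf_one T e).trans e.symm
  refine trf_of_ge (hu.1 r) ?_
  have : dep r ≤ len u + 1 := by
    by_cases hr : r ∈ N u
    · exact (dep_le hr).trans (Nat.le_succ _)
    · obtain ⟨s, -, hs⟩ := mem_of_ex (y := y) (r := u⁻¹ * r * u) fun h0 => e (by
        simp [pt_apply, h0, sg_nmem hr])
      have h1 : r ∈ N (u * gen Γ s) := by
        rw [mem_N_mul_gen]
        have := conj_iff.1 hs.symm
        tauto
      exact (dep_le h1).trans (by simpa using len_mul_le u (gen Γ s))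
  have : (dep r : ℝ) ≤ len u + 1 := by exact_mod_cast this
  linarith

theorem WT_finite {A : Set S} (h : Fl Γ A) : (WT Γ A : Set (W Γ)).Finite := by
  classical
  lift A to Finset S using h.1
  refine (A.powerset.finite_toSet.image (pr Γ)).subset fun u hu => ?_
  obtain ⟨B, h1, rfl⟩ := (mem_WT h.2).1 hu
  exact ⟨B, by simpa using h1, rfl⟩

/-- chambers are locally finite -/
theorem near_finite (hy : y ∈ Kc Γ) (u : W Γ) :
    {u' | ∃ y' ∈ Kc Γ, ‖pt u y - pt u' y'‖ < 1}.Finite :=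
  ((WT_finite hy.1.2).image (u * ·)).subset fun u' ⟨_, h1, h2⟩ =>
    ⟨u⁻¹ * u', near_mem h1.2 h2, by simp⟩

open Classical in
/-- the contraction -/
def ctr (p : I × Sig Γ) : Sig Γ := if p.1 = 0 then p.2 else ⟨trc (p.1 : ℝ)⁻¹ p.2, trc_mem _ p.2.2⟩

theorem continuous_ctr : Continuous (ctr : I × Sig Γ → Sig Γ) := by
  refine continuous_iff_continuousAt.2 fun p => ?_
  by_cases h : p.1 = 0
  · obtain ⟨u, y, hy, e⟩ := p.2.2
    obtain ⟨B, hB⟩ := ((near_finite hy u).image len).bddAbove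
    refine continuous_snd.continuousAt.congr ?_
    have h1 : ∀ᶠ q : I × Sig Γ in 𝓝 p, ‖p.2.1 - q.2.1‖ < 1 :=
      (by fun_prop : Continuous fun q : I × Sig Γ => ‖p.2.1 - q.2.1‖).continuousAt.eventually_lt
        continuousAt_const (by simp)
    have h2 : ∀ᶠ q : I × Sig Γ in 𝓝 p, (q.1 : ℝ) < ((B : ℝ) + 2)⁻¹ :=
      (by fun_prop : Continuous fun q : I × Sig Γ => (q.1 : ℝ)).continuousAt.eventually_lt
        continuousAt_const (by rw [h]; change (0 : ℝ) < _; positivity)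
    filter_upwards [h1, h2] with q h1 h2
    unfold ctr
    split_ifs with h0
    · rfl
    · obtain ⟨u', y', hy', e'⟩ := q.2.2
      refine Subtype.ext ?_
      change _ = trc _ _
      rw [e', trc_eq hy']
      have h3 : len u' ≤ B := hB ⟨u', ⟨y', hy', by rwa [← e, ← e']⟩, rfl⟩
      have h4 : (len u' : ℝ) ≤ B := by exact_mod_cast h3
      have h5 : (0 : ℝ) < q.1 := lt_of_le_of_ne q.1.2.1 fun e => h0 (Subtype.ext e.symm)
      have := (lt_inv_comm₀ h5 (by positivity)).1 h2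
      linarith
  · have h0 : (p.1 : ℝ) ≠ 0 := fun e => h (Subtype.ext e)
    rw [IsInducing.subtypeVal.continuousAt_iff]
    refine ContinuousAt.congr (f := fun q : I × Sig Γ => trc (q.1 : ℝ)⁻¹ q.2.1) ?_ ?_
    · exact continuous_trc.continuousAt.comp (f := fun q : I × Sig Γ => ((q.1 : ℝ)⁻¹, q.2.1))
        (((by fun_prop : Continuous fun q : I × Sig Γ => (q.1 : ℝ)).continuousAt.inv₀ h0).prodMk
          (by fun_prop))
    · filter_upwards [continuous_fst.continuousAt.eventually_ne h] with q hq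
      simp [ctr, hq]

instance : ContractibleSpace (Sig Γ) :=
  (contractible_iff_id_nullhomotopic _).2 ⟨⟨pt 1 0, 1, 0, zero_mem_Kc, rfl⟩,
    ⟨⟨⟨ctr, continuous_ctr⟩, fun z => by simp [ctr], fun z => Subtype.ext (by
      simp [ctr, trc_one z.2])⟩⟩⟩

end Crest.Agent.N233.Dv

end
end

-- ▼ part N233/Dv/Mt
section

/-!
# Row 233 (helper43): the basic construction on a chamber; chamberwise maps; contractibility
-/

set_option autoImplicit false
open Set Filter Topology unitInterval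

noncomputable section

namespace Crest.Agent.N233.Dv

open Crest.Agent.N255.Ra

variable {S : Type} {Γ : SimpleGraph S}

/-- a chamber: the cone `Kc Γ` with the apex replaced by a space dominated by `T` -/
structure Ch (Γ : SimpleGraph S) (T : Type) [TopologicalSpace T] where
  X : Type
  [top : TopologicalSpace X]
  p : C(X, LI S)
  p_mem : ∀ x, p x ∈ Kc Γ
  j : LI S → X
  j_cont : ContinuousOn j (Kc Γ \ {0})
  pj : ∀ y ∈ Kc Γ, y ≠ 0 → p (j y) = y
  jp : ∀ x, p x ≠ 0 → j (p x) = x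
  a : C(X, T)
  b : C(T, X)
  h : C(X × I, X)
  h_zero : ∀ x, h (x, 0) = x
  h_one : ∀ x, h (x, 1) = b (a x)

attribute [instance] Ch.top

namespace Ch

variable {T : Type} [TopologicalSpace T] (Φ Φ' : Ch Γ T)

/-- the basic construction -/
abbrev Mt : Type := {m : LI (W Γ) × Φ.X // ∃ u, m.1 = pt u (Φ.p m.2)}

/-- the point `x` of the chamber `u` -/
def mk' (u : W Γ) (x : Φ.X) : Φ.Mt := ⟨(pt u (Φ.p x), x), u, rfl⟩

theorem continuous_mk' (u : W Γ) : Continuous (Φ.mk' u) :=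
  (((continuous_pt u).comp Φ.p.continuous).prodMk continuous_id).subtype_mk _

variable {Φ Φ'}

theorem exists_mk' (m : Φ.Mt) : ∃ u x, m = Φ.mk' u x :=
  m.2.imp fun _ h => ⟨m.1.2, Subtype.ext (Prod.ext h rfl)⟩

section mp
variable {P : Type} [TopologicalSpace P] (k : C(P × Φ.X, Φ'.X))

/-- a family of maps that is the identity near the mirrors -/
def Rel : Prop := ∀ t x, 3 / 4 ≤ ‖Φ.p x‖ → Φ'.p (k (t, x)) = Φ.p x

/-- the chamberwise map -/
def mpf (q : P × Φ.Mt) : Φ'.Mt := Φ'.mk' q.2.2.choose (k (q.1, q.2.1.2))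

variable {k}

theorem mpf_mk' (hk : Rel k) (t : P) (u : W Γ) (x : Φ.X) :
    mpf k (t, Φ.mk' u x) = Φ'.mk' u (k (t, x)) := by
  have e : pt u (Φ.p x) = pt (Φ.mk' u x).2.choose (Φ.p x) := (Φ.mk' u x).2.choose_spec
  refine Subtype.ext (Prod.ext ?_ rfl)
  change pt (Φ.mk' u x).2.choose (Φ'.p (k (t, x))) = pt u (Φ'.p (k (t, x)))
  by_cases h : ‖Φ.p x‖ < 1
  · rw [← near_eq (Φ.p_mem x).2 (u := u) (u' := (Φ.mk' u x).2.choose) (y := Φ.p x)
      (by rw [← e, sub_self, norm_zero]; linarith)]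
  · rw [hk t x (by linarith), ← e]

theorem continuous_mpf (hk : Rel k) : Continuous (mpf k) := by
  have c2 : Continuous fun q : P × Φ.Mt => k (q.1, q.2.1.2) := by fun_prop
  refine continuous_iff_continuousAt.2 fun q0 => ?_
  obtain ⟨t0, m0⟩ := q0
  obtain ⟨u0, x0, rfl⟩ := exists_mk' m0
  by_cases h : ‖Φ.p x0‖ < 1
  · refine ((Φ'.continuous_mk' u0).comp c2).continuousAt.congr ?_
    have h1 : ∀ᶠ q : P × Φ.Mt in 𝓝 (t0, Φ.mk' u0 x0), ‖pt u0 (Φ.p x0) - q.2.1.1‖ < 1 - ‖Φ.p x0‖ :=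
      (by fun_prop : Continuous fun q : P × Φ.Mt => ‖pt u0 (Φ.p x0) - q.2.1.1‖).continuousAt.eventually_lt
        continuousAt_const (by simpa [mk'] using h)
    filter_upwards [h1] with ⟨t, m⟩ h1
    obtain ⟨u, x, rfl⟩ := exists_mk' m
    rw [mpf_mk' hk, near_eq (Φ.p_mem x).2 h1]
    rfl
  · rw [IsInducing.subtypeVal.continuousAt_iff]
    refine ((by fun_prop : Continuous fun q : P × Φ.Mt => q.2.1.1).prodMk c2).continuousAt.congr ?_
    have h1 : ∀ᶠ q : P × Φ.Mt in 𝓝 (t0, Φ.mk' u0 x0), 3 / 4 < ‖Φ.p q.2.1.2‖ :=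
      continuousAt_const.eventually_lt
        (by fun_prop : Continuous fun q : P × Φ.Mt => ‖Φ.p q.2.1.2‖).continuousAt
        (by change _ < ‖Φ.p x0‖; linarith)
    filter_upwards [h1] with ⟨t, m⟩ h1
    obtain ⟨u, x, rfl⟩ := exists_mk' m
    rw [Function.comp, mpf_mk' hk]
    exact Prod.ext (congrArg (pt u) (hk t x h1.le).symm) rfl

end mp

variable {F : Type} [Group F] [MulAction F T] (c : Cmb F T)

/-- clamp -/
abbrev cl (s : ℝ) : I := projIcc 0 1 zero_le_one s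

theorem continuous_cl : Continuous cl := continuous_projIcc

variable (Φ Φ')

/-- the canonical path from `b τ` (time `0`) to `x` (time `2`) -/
def pa (x : Φ.X) (τ : T) (s : ℝ) : Φ.X :=
  if s ≤ 1 then Φ.b (c.c (τ, Φ.a x, cl s)) else Φ.h (x, cl (2 - s))

theorem continuous_pa : Continuous fun q : Φ.X × T × ℝ => Φ.pa c q.1 q.2.1 q.2.2 := by
  have := continuous_cl
  refine Continuous.if_le (by fun_prop) (by fun_prop) (by fun_prop) continuous_const fun q h => ?_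
  rw [h, show (2 : ℝ) - 1 = 1 by norm_num, cl, projIcc_right]
  exact (congrArg Φ.b (c.one _ _)).trans (Φ.h_one _).symm

theorem pa_zero (x : Φ.X) (τ : T) : Φ.pa c x τ 0 = Φ.b τ := by
  rw [pa, if_pos zero_le_one, cl, projIcc_left]
  exact congrArg Φ.b (c.zero _ _)

theorem pa_two (x : Φ.X) (τ : T) {s : ℝ} (h : 2 ≤ s) : Φ.pa c x τ s = x := by
  rw [pa, if_neg (by linarith), cl, projIcc_of_le_left _ (by linarith)]
  exact Φ.h_zero x

theorem pa_diag (x : Φ.X) (s : ℝ) : Φ.pa c x (Φ.a x) s = Φ.h (x, cl (2 - s)) := by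
  unfold pa
  split_ifs with h
  · rw [c.diag, cl, projIcc_of_right_le _ (by linarith)]
    exact (Φ.h_one x).symm
  · rfl

theorem ne_zero {x : Φ.X} {r : ℝ} (hr : 0 < r) (h : r ≤ ‖Φ.p x‖) : Φ.p x ≠ 0 := fun e => by
  rw [e, norm_zero] at h; linarith

/-- the comparison map of two chambers -/
def kf (x : Φ.X) : Φ'.X :=
  if ‖Φ.p x‖ ≤ 1 / 4 then Φ'.b (Φ.a x) else Φ'.pa c (Φ'.j (Φ.p x)) (Φ.a x) (8 * ‖Φ.p x‖ - 2)

theorem continuous_kf : Continuous (Φ.kf Φ' c) := by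
  refine continuous_if_le (by fun_prop) continuous_const (by fun_prop) ?_ fun x h => ?_
  · refine (Φ'.continuous_pa c).comp_continuousOn
      (f := fun x => (Φ'.j (Φ.p x), Φ.a x, 8 * ‖Φ.p x‖ - 2)) (ContinuousOn.prodMk ?_ (by fun_prop))
    exact Φ'.j_cont.comp Φ.p.continuous.continuousOn fun x h =>
      ⟨Φ.p_mem x, Φ.ne_zero (by norm_num) h⟩
  · rw [h, show (8 : ℝ) * (1 / 4) - 2 = 0 by norm_num, pa_zero]

theorem kf_eq {x : Φ.X} (h : 1 / 2 ≤ ‖Φ.p x‖) : Φ.kf Φ' c x = Φ'.j (Φ.p x) := by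
  rw [kf, if_neg (by linarith), pa_two _ _ _ _ (by linarith)]

theorem p_kf {x : Φ.X} (h : 1 / 2 ≤ ‖Φ.p x‖) : Φ'.p (Φ.kf Φ' c x) = Φ.p x := by
  rw [kf_eq _ _ _ h, Φ'.pj _ (Φ.p_mem x) (Φ.ne_zero (by norm_num) h)]

theorem kf_kf {x : Φ.X} (h : 1 / 2 ≤ ‖Φ.p x‖) : Φ'.kf Φ c (Φ.kf Φ' c x) = x := by
  rw [kf_eq _ _ _ (by rwa [p_kf _ _ _ h]), p_kf _ _ _ h, Φ.jp _ (Φ.ne_zero (by norm_num) h)]

/-- the comparison map of two chambers -/
def k : C(Unit × Φ.X, Φ'.X) := ⟨fun q => Φ.kf Φ' c q.2, (Φ.continuous_kf Φ' c).comp continuous_snd⟩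

theorem rel_k : Rel (Φ.k Φ' c) := fun _ _ h => Φ.p_kf Φ' c (by linarith)

/-- the canonical path from `x0` to `x` -/
def ga (x0 x : Φ.X) (t : ℝ) : Φ.X :=
  if t ≤ 1 / 3 then Φ.h (x0, cl (3 * t)) else Φ.pa c x (Φ.a x0) (3 * t - 1)

theorem continuous_ga : Continuous fun q : Φ.X × Φ.X × ℝ => Φ.ga c q.1 q.2.1 q.2.2 := by
  have := continuous_cl
  refine Continuous.if_le (by fun_prop) ((Φ.continuous_pa c).comp
    (f := fun q : Φ.X × Φ.X × ℝ => (q.2.1, Φ.a q.1, 3 * q.2.2 - 1)) (by fun_prop)) (by fun_prop)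
    continuous_const fun q h => ?_
  rw [h, show (3 : ℝ) * (1 / 3) = 1 by norm_num, sub_self, pa_zero, cl, projIcc_right]
  exact Φ.h_one _

theorem ga_diag (x : Φ.X) (t : ℝ) : Φ.ga c x x t = Φ.h (x, cl (min (3 * t) (3 - 3 * t))) := by
  unfold ga
  split_ifs with h
  · rw [min_eq_left (by linarith)]
  · rw [pa_diag]
    rcases le_total (3 * t) (3 - 3 * t) with h1 | h1
    · rw [min_eq_left h1, cl, cl, projIcc_of_right_le _ (by linarith), projIcc_of_right_le _ (by linarith)]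
    · rw [min_eq_right h1]; congr 3; ring

/-- the homotopy, relative to the collar, from the composite of the comparison maps to the identity -/
def Hf (q : I × Φ.X) : Φ.X :=
  if ‖Φ.p q.2‖ ≤ 1 / 2 then Φ.ga c (Φ'.kf Φ c (Φ.kf Φ' c q.2)) q.2 q.1
  else Φ.h (q.2, cl (max 0 (3 - 4 * ‖Φ.p q.2‖) * min (3 * (q.1 : ℝ)) (3 - 3 * (q.1 : ℝ))))

theorem continuous_Hf : Continuous (Φ.Hf Φ' c) := by
  have := continuous_cl
  have := Φ.continuous_kf Φ' c
  have := Φ'.continuous_kf Φ c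
  refine Continuous.if_le ((Φ.continuous_ga c).comp
    (f := fun q : I × Φ.X => (Φ'.kf Φ c (Φ.kf Φ' c q.2), q.2, (q.1 : ℝ))) (by fun_prop)) (by fun_prop)
    (by fun_prop) continuous_const fun q h => ?_
  rw [kf_kf _ _ _ h.ge, ga_diag, h]
  norm_num

/-- the homotopy -/
def H : C(I × Φ.X, Φ.X) := ⟨Φ.Hf Φ' c, Φ.continuous_Hf Φ' c⟩

theorem rel_H : Rel (Φ.H Φ' c) := fun t x h => by
  change Φ.p (Φ.Hf Φ' c (t, x)) = _
  rw [Hf, if_neg (by dsimp only; linarith), max_eq_left (by dsimp only; linarith), zero_mul, cl,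
    projIcc_left]
  exact congrArg Φ.p (Φ.h_zero x)

theorem H_zero (x : Φ.X) : Φ.H Φ' c (0, x) = Φ'.kf Φ c (Φ.kf Φ' c x) := by
  change Φ.Hf Φ' c (0, x) = _
  unfold Hf
  split_ifs with h
  · rw [ga, if_pos (by norm_num)]
    simpa using Φ.h_zero _
  · rw [kf_kf _ _ _ (not_le.1 h).le]
    simpa using Φ.h_zero _

theorem H_one (x : Φ.X) : Φ.H Φ' c (1, x) = x := by
  change Φ.Hf Φ' c (1, x) = _
  unfold Hf
  split_ifs with h
  · rw [ga, if_neg (by norm_num), pa_two _ _ _ _ (by norm_num)]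
  · simpa using Φ.h_zero _

/-- the comparison map of the basic constructions -/
def K : C(Φ.Mt, Φ'.Mt) :=
  ⟨fun m => mpf (Φ.k Φ' c) ((), m), (continuous_mpf (Φ.rel_k Φ' c)).comp (by fun_prop)⟩

theorem K_mk' (u : W Γ) (x : Φ.X) : Φ.K Φ' c (Φ.mk' u x) = Φ'.mk' u (Φ.kf Φ' c x) :=
  mpf_mk' (Φ.rel_k Φ' c) _ _ _

/-- the comparison maps are homotopy inverse -/
def HK : ((Φ'.K Φ c).comp (Φ.K Φ' c)).Homotopy (.id _) where
  toFun := mpf (Φ.H Φ' c)
  continuous_toFun := continuous_mpf (Φ.rel_H Φ' c)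
  map_zero_left m := by
    obtain ⟨u, x, rfl⟩ := exists_mk' m
    rw [mpf_mk' (Φ.rel_H Φ' c), H_zero, ContinuousMap.comp_apply, K_mk', K_mk']
  map_one_left m := by
    obtain ⟨u, x, rfl⟩ := exists_mk' m
    rw [mpf_mk' (Φ.rel_H Φ' c), H_one, ContinuousMap.id_apply]


/-- the comparison equivalence -/
def eqv : ContinuousMap.HomotopyEquiv Φ.Mt Φ'.Mt := ⟨Φ.K Φ' c, Φ'.K Φ c, ⟨Φ.HK Φ' c⟩, ⟨Φ'.HK Φ c⟩⟩

end Ch

theorem smul_mem_Kc {y : LI S} (hy : y ∈ Kc Γ) {t : ℝ} (h0 : 0 ≤ t) (h1 : t ≤ 1) : t • y ∈ Kc Γ :=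
  ⟨⟨fun s => mul_nonneg h0 (hy.1.1 s), Fl.mono hy.1.2 fun s h e => h (by
    change t * y s = 0
    rw [e, mul_zero])⟩, by
      rw [norm_smul, Real.norm_of_nonneg h0]
      exact mul_le_one₀ h1 (norm_nonneg _) hy.2⟩

open Classical in
/-- the standard chamber -/
def cone (Γ : SimpleGraph S) {T : Type} [TopologicalSpace T] (t0 : T) : Ch Γ T where
  X := Kc Γ
  p := ⟨Subtype.val, continuous_subtype_val⟩
  p_mem x := x.2
  j y := if h : y ∈ Kc Γ then ⟨y, h⟩ else ⟨0, zero_mem_Kc⟩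
  j_cont := by
    rw [IsInducing.subtypeVal.continuousOn_iff]
    exact continuousOn_id.congr fun y hy => by simp [hy.1]
  pj y hy _ := by simp [hy]
  jp x _ := by simp
  a := .const _ t0
  b := .const _ ⟨0, zero_mem_Kc⟩
  h := ⟨fun q => ⟨(1 - q.2 : ℝ) • q.1, smul_mem_Kc q.1.2 (by linarith [q.2.2.2]) (by linarith [q.2.2.1])⟩,
    Continuous.subtype_mk (by fun_prop) _⟩
  h_zero x := by simp
  h_one x := by simp

/-- the chamber coordinate -/
def crd (z : Sig Γ) : Kc Γ := ⟨z.2.choose_spec.choose, z.2.choose_spec.choose_spec.1⟩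

theorem crd_spec (z : Sig Γ) : ∃ u, z.1 = pt u (crd z).1 := ⟨_, z.2.choose_spec.choose_spec.2⟩

theorem continuous_crd : Continuous (crd : Sig Γ → Kc Γ) :=
  (LipschitzWith.of_dist_le_mul (K := 1) fun z z' => by
    obtain ⟨u, e⟩ := crd_spec z
    obtain ⟨u', e'⟩ := crd_spec z'
    rw [NNReal.coe_one, one_mul, Subtype.dist_eq, Subtype.dist_eq, dist_eq_norm, dist_eq_norm, e, e']
    exact sub_le_pt (crd z).2 (crd z').2 u u').continuous

/-- the basic construction on the standard chamber is the Davis complex -/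
def coneHomeo (Γ : SimpleGraph S) {T : Type} [TopologicalSpace T] (t0 : T) :
    (cone Γ t0).Mt ≃ₜ Sig Γ where
  toFun m := ⟨m.1.1, m.2.imp fun _ h => ⟨_, m.1.2.2, h⟩⟩
  invFun z := ⟨(z.1, crd z), crd_spec z⟩
  left_inv m := by
    obtain ⟨u, x, rfl⟩ := Ch.exists_mk' m
    obtain ⟨u', e⟩ := crd_spec ⟨pt u x.1, u, x.1, x.2, rfl⟩
    refine Subtype.ext (Prod.ext rfl (Subtype.ext (eq_of_norm_sub_le_zero ?_)))
    refine (sub_le_pt (crd _).2 x.2 u' u).trans (le_of_eq ?_)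
    exact norm_eq_zero.2 (sub_eq_zero.2 e.symm)
  right_inv _ := rfl
  continuous_toFun := (continuous_fst.comp continuous_subtype_val).subtype_mk _
  continuous_invFun := (continuous_subtype_val.prodMk continuous_crd).subtype_mk _

theorem Ch.contractible {T F : Type} [TopologicalSpace T] [Group F] [MulAction F T] (Φ : Ch Γ T)
    (c : Cmb F T) (x : Φ.X) : ContractibleSpace Φ.Mt :=
  haveI := (coneHomeo Γ (Φ.a x)).contractibleSpace
  (Φ.eqv (cone Γ (Φ.a x)) c).contractibleSpace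

end Crest.Agent.N233.Dv

end
end

-- ▼ part N233/Dv/Act

/-!
# Row 233 (helper43): the action of `W ⋊ F` on the basic construction; equivalence of the quotients
-/

set_option autoImplicit false
open Set Filter Topology unitInterval

noncomputable section

namespace Crest.Agent.N233.Dv

open Crest.Agent.N255.Ra MulAction

section quot
variable {G A B : Type} [Group G] [TopologicalSpace A] [TopologicalSpace B] [MulAction G A]
  [MulAction G B]





end quot

variable {S : Type} {Γ : SimpleGraph S} {F : Type} [Group F]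

theorem norm_perm {y y' : LI S} (φ : S ≃ S) (h : ∀ s, y' (φ s) = y s) : ‖y'‖ = ‖y‖ :=
  le_antisymm (norm_le (norm_nonneg _) fun s => by
    obtain ⟨s, rfl⟩ := φ.surjective s
    rw [h]; exact abs_le_norm y s) (norm_le (norm_nonneg _) fun s => by
    rw [← h]; exact abs_le_norm y' _)

/-- a chamber with symmetries -/
structure ChF (ρ : F →* (Γ ≃g Γ)) (T : Type) [TopologicalSpace T] [MulAction F T] extends Ch Γ T where
  [act : MulAction F X]
  [cont : ContinuousConstSMul F X]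
  p_smul : ∀ (f : F) x s, p (f • x) (ρ f s) = p x s
  a_smul : ∀ (f : F) x, a (f • x) = f • a x
  b_smul : ∀ (f : F) t, b (f • t) = f • b t
  h_smul : ∀ (f : F) x t, h (f • x, t) = f • h (x, t)

attribute [instance] ChF.act ChF.cont

/-- the big group -/
abbrev G0 (ρ : F →* (Γ ≃g Γ)) : Type := W Γ ⋊[autHom ρ] F

namespace ChF

variable {ρ : F →* (Γ ≃g Γ)} {T : Type} [TopologicalSpace T] [MulAction F T] (Φ Φ' : ChF ρ T)

theorem tr_eq (g : G0 ρ) (u : W Γ) (x : Φ.X) :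
    tr g.left (ρ g.right) (pt u (Φ.p x)) = pt (g.left * aut (ρ g.right) u) (Φ.p (g.right • x)) :=
  tr_pt _ _ _ (Φ.p_smul _ x)

instance : SMul (G0 ρ) Φ.toCh.Mt :=
  ⟨fun g m => ⟨(tr g.left (ρ g.right) m.1.1, g.right • m.1.2),
    m.2.elim fun u h => ⟨_, by rw [h]; exact Φ.tr_eq g u _⟩⟩⟩

theorem smul_mk' (g : G0 ρ) (u : W Γ) (x : Φ.X) :
    g • Φ.toCh.mk' u x = Φ.toCh.mk' (g.left * aut (ρ g.right) u) (g.right • x) :=
  Subtype.ext (Prod.ext (Φ.tr_eq g u x) rfl)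


instance : MulAction (G0 ρ) Φ.toCh.Mt where
  one_smul m := by
    obtain ⟨u, x, rfl⟩ := Ch.exists_mk' m
    rw [smul_mk', ← autHom_apply]; simp
  mul_smul g g' m := by
    obtain ⟨u, x, rfl⟩ := Ch.exists_mk' m
    simp only [smul_mk', ← autHom_apply]
    simp [mul_smul, mul_assoc]

instance : ContinuousConstSMul (G0 ρ) Φ.toCh.Mt :=
  ⟨fun g => (((continuous_tr _ _).comp (by fun_prop)).prodMk (by fun_prop)).subtype_mk _⟩

instance (G : Subgroup (G0 ρ)) : ContinuousConstSMul G Φ.toCh.Mt := ⟨fun g => continuous_const_smul g.1⟩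

theorem inl_smul (w u : W Γ) (x : Φ.X) :
    (SemidirectProduct.inl w : G0 ρ) • Φ.toCh.mk' u x = Φ.toCh.mk' (w * u) x := by
  rw [smul_mk', ← autHom_apply]; simp

theorem norm_smul (f : F) (x : Φ.X) : ‖Φ.p (f • x)‖ = ‖Φ.p x‖ := norm_perm (ρ f).toEquiv (Φ.p_smul f x)

theorem j_smul (f : F) {x : Φ.X} (h : Φ.p x ≠ 0) : Φ'.j (Φ.p (f • x)) = f • Φ'.j (Φ.p x) := by
  have e : Φ'.p (f • Φ'.j (Φ.p x)) = Φ.p (f • x) := li_ext fun s => by
    obtain ⟨s, rfl⟩ := (ρ f).surjective s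
    rw [Φ'.p_smul, Φ.p_smul, Φ'.pj _ (Φ.p_mem x) h]
  rw [← e, Φ'.jp]
  rwa [e, ← norm_ne_zero_iff, norm_smul, norm_ne_zero_iff]

variable (c : Cmb F T)








/-- the chambers through a compact set -/
theorem chambers_finite {K : Set Φ.toCh.Mt} (hK : IsCompact K) :
    {u | ∃ x, Φ.toCh.mk' u x ∈ K}.Finite := by
  obtain ⟨t, -, ht⟩ := hK.elim_nhds_subcover (fun m => {m' | ‖m.1.1 - m'.1.1‖ < 1}) fun m _ =>
    (isOpen_lt (by fun_prop) continuous_const).mem_nhds (by simp)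
  refine (t.finite_toSet.biUnion fun m _ => near_finite (Φ.p_mem m.1.2) m.2.choose).subset ?_
  rintro u ⟨x, hx⟩
  obtain ⟨m, hm, h⟩ := mem_iUnion₂.1 (ht hx)
  exact mem_iUnion₂.2 ⟨m, hm, Φ.p x, Φ.p_mem x, by rw [← m.2.choose_spec]; exact h⟩

instance [ProperlyDiscontinuousSMul F Φ.X] : ProperlyDiscontinuousSMul (G0 ρ) Φ.toCh.Mt := ⟨by
  intro K L hK hL
  have c2 : Continuous fun m : Φ.toCh.Mt => m.1.2 := by fun_prop
  have h1 := ProperlyDiscontinuousSMul.finite_disjoint_inter_image (Γ := F) (hK.image c2) (hL.image c2)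
  refine ((h1.prod ((Φ.chambers_finite hK).prod (Φ.chambers_finite hL))).image
    fun q => (⟨q.2.2 * (aut (ρ q.1) q.2.1)⁻¹, q.1⟩ : G0 ρ)).subset ?_
  rintro g ⟨_, ⟨m, hm, rfl⟩, h⟩
  obtain ⟨u, x, rfl⟩ := Ch.exists_mk' m
  refine ⟨(g.right, u, g.left * aut (ρ g.right) u), ⟨⟨g.right • x, ⟨x, ⟨_, hm, rfl⟩, rfl⟩, _, h, rfl⟩,
    ⟨x, hm⟩, g.right • x, by rwa [← smul_mk']⟩, ?_⟩
  ext <;> simp⟩

theorem free (hF : ∀ (f : F) (x : Φ.X), f • x = x → f = 1) {G : Subgroup (G0 ρ)} (hG : Tf G) (g : G)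
    (m : Φ.toCh.Mt) (h : g • m = m) : g = 1 := by
  obtain ⟨u, x, rfl⟩ := Ch.exists_mk' m
  have h1 : g.1.right = 1 := hF _ x (congrArg (fun m : Φ.toCh.Mt => m.1.2) h)
  have h2 : pt (g.1.left * u) (Φ.p x) = pt u (Φ.p x) := by
    have := congrArg (fun m : Φ.toCh.Mt => m.1.1) ((Φ.smul_mk' g.1 u x).symm.trans h)
    rw [h1, ← autHom_apply] at this
    simpa [Ch.mk'] using this
  have h3 := near_mem (u := u) (u' := g.1.left * u) (y := Φ.p x) (Φ.p_mem x).2 (by simp [h2])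
  exact Subtype.ext (SemidirectProduct.ext
    (hG g.1 g.2 h1 u _ (Φ.p_mem x).1.2 (by rwa [mul_assoc])) h1)

end ChF

end Crest.Agent.N233.Dv

end
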