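import Crest.Agent.N233.Dv.Act
import Crest.Prelude.Def_ClassifyingComplex
import Crest.Agent.N233.Ae.Ext
import Crest.Agent.N233.Hyp.Mir

-- ▼ part N233/Dv/Man
section

/-!
# Row 233 (helper43): the closed aspherical four-manifold of a filling
-/

set_option autoImplicit false
open Set Filter Topology unitInterval

noncomputable section

namespace Crest.Agent.N233

open Crest.Agent.N255.Ra MulAction Dv

variable {S : Type} {Γ : SimpleGraph S} {F : Type} [Group F] {ρ : F →* (Γ ≃g Γ)} {T : Type}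
  [TopologicalSpace T] [MulAction F T]

/-- fillings of the cone on the flag complex of `Γ` -/
abbrev FillG (ρ : F →* (Γ ≃g Γ)) (T : Type) [TopologicalSpace T] [MulAction F T] : Type 1 :=
  Fill (Fl Γ) F (fun f s => ρ f s) T

theorem smul_mem_Cone {y : LI S} (hy : y ∈ Cone (Fl Γ)) {t : ℝ} (h0 : 0 ≤ t) : t • y ∈ Cone (Fl Γ) :=
  ⟨fun s => mul_nonneg h0 (hy.1 s), Fl.mono hy.2 fun s h e => h (by
    change t * y s = 0
    rw [e, mul_zero])⟩

namespace Fill

variable (Φ : FillG ρ T)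

theorem norm_smul' (f : F) (x : Φ.X) : ‖Φ.p (f • x)‖ = ‖Φ.p x‖ := norm_perm (ρ f).toEquiv (Φ.p_smul f x)

theorem j_smul (f : F) {y y' : LI S} (hy : y ∈ Cone (Fl Γ)) (h0 : y ≠ 0) (h : ∀ s, y' (ρ f s) = y s) :
    Φ.j y' = f • Φ.j y := by
  have e : Φ.p (f • Φ.j y) = y' := li_ext fun s => by
    obtain ⟨s, rfl⟩ := (ρ f).surjective s
    rw [Φ.p_smul f, h, Φ.pj _ hy h0]
  rw [← e, Φ.jp]
  rwa [← norm_ne_zero_iff, norm_smul', Φ.pj _ hy h0, norm_ne_zero_iff]

/-- the closed chamber -/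
abbrev X1 : Type := {x : Φ.X // ‖Φ.p x‖ ≤ 1}

theorem nrm_mem {x : Φ.X} (h : 1 ≤ ‖Φ.p x‖) : ‖Φ.p x‖⁻¹ • Φ.p x ∈ Cone (Fl Γ) \ {0} :=
  ⟨smul_mem_Cone (Φ.p_mem x) (by positivity), smul_ne_zero (inv_ne_zero (by linarith))
    (norm_ne_zero_iff.1 (by linarith))⟩

/-- the retraction onto the closed chamber -/
def rt (x : Φ.X) : Φ.X1 :=
  ⟨if ‖Φ.p x‖ ≤ 1 then x else Φ.j (‖Φ.p x‖⁻¹ • Φ.p x), by
    split_ifs with h
    · exact h
    · have := Φ.nrm_mem (not_le.1 h).le
      rw [Φ.pj _ this.1 this.2, norm_smul, norm_inv, norm_norm]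
      exact inv_mul_le_one⟩

theorem rt_eq {x : Φ.X} (h : ‖Φ.p x‖ ≤ 1) : Φ.rt x = ⟨x, h⟩ := Subtype.ext (if_pos h)

theorem continuous_rt : Continuous Φ.rt := by
  have c1 : Continuous fun x => ‖Φ.p x‖ := by fun_prop
  refine Continuous.subtype_mk ?_ _
  refine continuous_if_le c1 continuous_const continuousOn_id
    (Φ.j_cont.comp (f := fun x => ‖Φ.p x‖⁻¹ • Φ.p x) (ContinuousOn.smul (c1.continuousOn.inv₀
      fun x h => ?_) Φ.p.continuous.continuousOn) fun x h => Φ.nrm_mem h) fun x h => ?_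
  · exact (zero_lt_one.trans_le h).ne'
  · rw [h, inv_one, one_smul, Φ.jp _ (norm_ne_zero_iff.1 (by rw [h]; exact one_ne_zero))]

instance : MulAction F Φ.X1 where
  smul f x := ⟨f • x.1, by rw [norm_smul']; exact x.2⟩
  one_smul x := Subtype.ext (one_smul F x.1)
  mul_smul f g x := Subtype.ext (mul_smul f g x.1)

theorem val_smul (f : F) (x : Φ.X1) : (f • x).1 = f • x.1 := rfl

instance : ContinuousConstSMul F Φ.X1 :=
  ⟨fun f => ((continuous_const_smul f).comp continuous_subtype_val).subtype_mk _⟩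

instance : ProperlyDiscontinuousSMul F Φ.X1 := ⟨fun hK hL =>
  (ProperlyDiscontinuousSMul.finite_disjoint_inter_image (Γ := F) (hK.image continuous_subtype_val)
    (hL.image continuous_subtype_val)).subset fun _ ⟨_, ⟨x, hx, e⟩, h⟩ =>
      ⟨_, ⟨_, ⟨x, hx, rfl⟩, rfl⟩, _, h, congrArg Subtype.val e.symm⟩⟩

theorem rt_smul (f : F) (x : Φ.X) : Φ.rt (f • x) = f • Φ.rt x := by
  refine Subtype.ext ?_
  simp only [val_smul, rt, norm_smul']
  split_ifs with h
  · rfl
  · have := Φ.nrm_mem (not_le.1 h).le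
    exact Φ.j_smul f this.1 this.2 fun s => congrArg (‖Φ.p x‖⁻¹ * ·) (Φ.p_smul f x s)

/-- the chamber of a filling -/
def chF : ChF ρ T where
  X := Φ.X1
  p := ⟨fun x => Φ.p x.1, by fun_prop⟩
  p_mem x := ⟨Φ.p_mem x.1, x.2⟩
  j y := Φ.rt (Φ.j y)
  j_cont := Φ.continuous_rt.comp_continuousOn (Φ.j_cont.mono fun _ h => ⟨h.1.1, h.2⟩)
  pj y hy h0 := by
    rw [rt_eq _ (by rw [Φ.pj _ hy.1 h0]; exact hy.2)]
    exact Φ.pj _ hy.1 h0
  jp x h := (congrArg Φ.rt (Φ.jp _ h)).trans (Φ.rt_eq x.2)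
  a := ⟨fun x => Φ.a x.1, by fun_prop⟩
  b := ⟨fun t => Φ.rt (Φ.b t), Φ.continuous_rt.comp Φ.b.continuous⟩
  h := ⟨fun q => Φ.rt (Φ.h (q.1.1, q.2)), Φ.continuous_rt.comp (by fun_prop)⟩
  h_zero x := (congrArg Φ.rt (Φ.h_zero _)).trans (Φ.rt_eq x.2)
  h_one x := congrArg Φ.rt (Φ.h_one _)
  p_smul f x := Φ.p_smul f x.1
  a_smul f x := Φ.a_smul f x.1
  b_smul f t := (congrArg Φ.rt (Φ.b_smul f t)).trans (Φ.rt_smul f _)
  h_smul f x t := (congrArg Φ.rt (Φ.h_smul f x.1 t)).trans (Φ.rt_smul f _)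

/-- the universal cover -/
abbrev Mt : Type := Φ.chF.toCh.Mt

/-- the point `x` of the chamber `u` -/
abbrev mk' (u : W Γ) (x : Φ.X1) : Φ.Mt := Φ.chF.toCh.mk' u x

instance : T2Space Φ.chF.X := inferInstanceAs (T2Space Φ.X1)
instance : ProperlyDiscontinuousSMul F Φ.chF.X := inferInstanceAs (ProperlyDiscontinuousSMul F Φ.X1)

/-- the model of the open star of a vertex -/
def U : TopologicalSpace.Opens Φ.X := ⟨{x | ‖Φ.p x‖ < 2}, isOpen_lt (by fun_prop) continuous_const⟩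

theorem fld_mem' {y : LI S} (hy : y ∈ Cone (Fl Γ)) (h1 : 1 ≤ ‖y‖) (h2 : ‖y‖ < 2) :
    fld y ∈ Cone (Fl Γ) \ {0} := by
  refine ⟨(fld_mem hy fun s => (le_norm y s).trans h2.le).1, fun e => ?_⟩
  obtain ⟨s, hs⟩ := exists_lt (y := y) le_rfl (by linarith)
  have h3 := le_norm y s
  have h4 : fld y s = 0 := by rw [mem_singleton_iff.1 e]; rfl
  rw [abs_of_nonneg (hy.1 s)] at hs
  rw [fld_apply, sub_eq_zero, eq_comm, abs_eq zero_le_one] at h4
  rcases h4 with h4 | h4 <;> linarith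

/-- folding the star onto the chamber -/
def fo (x : Φ.U) : Φ.X := if ‖Φ.p x‖ ≤ 1 then x.1 else Φ.j (fld (Φ.p x))

theorem p_fo (x : Φ.U) : Φ.p (Φ.fo x) = fld (Φ.p x) := by
  unfold fo
  split_ifs with h
  · rw [fld_eq h]
  · have := fld_mem' (Φ.p_mem x) (not_le.1 h).le x.2
    exact Φ.pj _ this.1 this.2

theorem continuous_fo : Continuous Φ.fo := by
  refine continuous_if_le (by fun_prop) continuous_const continuous_subtype_val.continuousOn
    (Φ.j_cont.comp (continuous_fld.comp (by fun_prop)).continuousOn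
      fun x h => fld_mem' (Φ.p_mem x) h x.2) fun x h => ?_
  rw [fld_eq h.le, Φ.jp _ (norm_ne_zero_iff.1 (by rw [h]; exact one_ne_zero))]

/-- the parametrisation of the star of the base vertex -/
def par (x : Φ.U) : Φ.Mt :=
  ⟨(pt 1 (Φ.p x), ⟨Φ.fo x, by
    rw [p_fo]; exact (fld_mem (Φ.p_mem x) fun s => (le_norm _ s).trans x.2.le).2⟩),
    (fold (Φ.p_mem x)).imp fun _ h => h.trans (congrArg _ (Φ.p_fo x).symm)⟩

theorem continuous_par : Continuous Φ.par :=
  (((continuous_pt 1).comp (by fun_prop)).prodMk (Φ.continuous_fo.subtype_mk _)).subtype_mk _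

theorem range_par : range Φ.par = {m | ‖pt 1 0 - m.1.1‖ < 2} := by
  ext m
  constructor
  · rintro ⟨x, rfl⟩
    exact (norm_pt _).trans_lt x.2
  · intro h
    obtain ⟨u, x, rfl⟩ := Ch.exists_mk' m
    obtain ⟨y, h1, h2, h3, h4⟩ := unfold (Φ.chF.p_mem x) (star_mem h)
    have hy : y ∈ Cone (Fl Γ) := ⟨fun s => (h1 s).1, Fl.mono (Φ.chF.p_mem x).1.2 h2⟩
    have hn : ‖y‖ < 2 := by rw [← norm_pt (Γ := Γ), h3]; exact h
    by_cases a : ‖y‖ ≤ 1
    · rw [fld_eq a] at h4
      subst h4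
      exact ⟨⟨x.1, hn⟩, Subtype.ext (Prod.ext h3 (Subtype.ext (if_pos a)))⟩
    · have e := Φ.pj y hy (norm_ne_zero_iff.1 (by linarith))
      refine ⟨⟨Φ.j y, by change ‖Φ.p (Φ.j y)‖ < 2; rwa [e]⟩, Subtype.ext (Prod.ext ?_ (Subtype.ext ?_))⟩
      · exact (congrArg (pt 1) e).trans h3
      · change (if ‖Φ.p (Φ.j y)‖ ≤ 1 then Φ.j y else Φ.j (fld (Φ.p (Φ.j y)))) = x.1
        rw [e, if_neg a, h4]
        exact Φ.jp _ (h4 ▸ (fld_mem' hy (not_le.1 a).le hn).2)

theorem isOpenEmbedding_par : IsOpenEmbedding Φ.par := by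
  refine ⟨?_, by rw [range_par]; exact isOpen_lt (by fun_prop) continuous_const⟩
  let g : range Φ.par → Φ.X := fun m =>
    if ‖res m.1.1.1‖ ≤ 1 then (m.1.1.2 : Φ.X1).1 else Φ.j (res m.1.1.1)
  have c1 : Continuous fun m : range Φ.par => res m.1.1.1 := continuous_res.comp (by fun_prop)
  have hg : Continuous g := by
    refine continuous_if_le c1.norm continuous_const (Continuous.continuousOn
      (continuous_subtype_val.comp (continuous_snd.comp (by fun_prop))))
      (Φ.j_cont.comp c1.continuousOn ?_) ?_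
    · rintro ⟨_, x, rfl⟩ h
      change 1 ≤ ‖res (pt 1 (Φ.p x))‖ at h
      change res (pt 1 (Φ.p x)) ∈ _
      rw [res_pt] at h ⊢
      exact ⟨Φ.p_mem x, norm_ne_zero_iff.1 (by linarith)⟩
    · rintro ⟨_, x, rfl⟩ h
      change ‖res (pt 1 (Φ.p x))‖ = 1 at h
      change Φ.fo x = Φ.j (res (pt 1 (Φ.p x)))
      rw [res_pt] at h ⊢
      rw [fo, if_pos h.le, Φ.jp _ (norm_ne_zero_iff.1 (by rw [h]; exact one_ne_zero))]
  have e : g ∘ rangeFactorization Φ.par = Subtype.val := funext fun x => by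
    change (if ‖res (pt 1 (Φ.p x))‖ ≤ 1 then Φ.fo x else Φ.j (res (pt 1 (Φ.p x)))) = x
    rw [res_pt]
    split_ifs with h
    · exact if_pos h
    · exact Φ.jp _ (norm_ne_zero_iff.1 (by linarith))
  exact IsEmbedding.subtypeVal.comp (IsEmbedding.of_comp Φ.continuous_par.rangeFactorization hg
    (e ▸ IsEmbedding.subtypeVal))

theorem par_eq (x : Φ.X1) : Φ.par ⟨x.1, x.2.trans_lt one_lt_two⟩ = Φ.mk' 1 x :=
  Subtype.ext (Prod.ext rfl (Subtype.ext (if_pos x.2)))

theorem exists_chart (m : Φ.Mt) : ∃ e : OpenPartialHomeomorph Φ.Mt E4, m ∈ e.source := by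
  obtain ⟨u, x, rfl⟩ := Ch.exists_mk' m
  let x' : Φ.U := ⟨x.1, x.2.trans_lt one_lt_two⟩
  have : Nonempty Φ.U := ⟨x'⟩
  have h := (Homeomorph.smul (SemidirectProduct.inl u : G0 ρ)).isOpenEmbedding.comp
    Φ.isOpenEmbedding_par
  have e : (Homeomorph.smul (SemidirectProduct.inl u : G0 ρ) ∘ Φ.par) x' = Φ.chF.toCh.mk' u x := by
    rw [Function.comp, par_eq, Homeomorph.smul_apply, ChF.inl_smul, mul_one]
  refine ⟨(h.toOpenPartialHomeomorph _).symm.trans (chartAt E4 x'), ?_⟩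
  rw [← e, OpenPartialHomeomorph.trans_source]
  refine ⟨by simp, ?_⟩
  rw [mem_preimage, h.toOpenPartialHomeomorph_left_inv]
  exact mem_chart_source _ _

instance : ChartedSpace E4 Φ.Mt where
  atlas := univ
  chartAt m := (Φ.exists_chart m).choose
  mem_chart_source m := (Φ.exists_chart m).choose_spec
  chart_mem_atlas _ := trivial

instance : LocallyCompactSpace Φ.Mt := ChartedSpace.locallyCompactSpace E4 _

theorem contractible (c : Cmb F T) : ContractibleSpace Φ.Mt :=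
  Φ.chF.toCh.contractible c (Φ.rt (Classical.arbitrary _))

/-- `W ⋊ F` acts cocompactly -/
theorem cocompact : ∃ K : Set Φ.Mt, IsCompact K ∧ ∀ m, ∃ g : G0 ρ, g • m ∈ K := by
  obtain ⟨K, hK, h⟩ := Φ.cpt
  have hc : IsClosed {x : Φ.X | ‖Φ.p x‖ ≤ 1} := isClosed_le (by fun_prop) continuous_const
  refine ⟨Φ.mk' 1 '' (Subtype.val ⁻¹' K), (hc.isClosedEmbedding_subtypeVal.isCompact_preimage hK).image
    (Φ.chF.toCh.continuous_mk' 1), fun m => ?_⟩
  obtain ⟨u, x, rfl⟩ := Ch.exists_mk' m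
  obtain ⟨f, hf⟩ := h x.1 x.2
  refine ⟨⟨(aut (ρ f) u)⁻¹, f⟩, f • (x : Φ.X1), hf, ?_⟩
  rw [ChF.smul_mk', inv_mul_cancel]

/-- the closed manifold -/
abbrev M (G : Subgroup (G0 ρ)) : Type := orbitRel.Quotient G Φ.Mt

variable {G : Subgroup (G0 ρ)}

theorem cancel (hG : Tf G) : IsCancelSMul G Φ.Mt :=
  isCancelSMul_iff_eq_one_of_smul_eq.2
    (Φ.chF.free (fun f x h => Φ.free f x.1 (congrArg Subtype.val h)) hG)


/-- the charts of the closed manifold -/
@[reducible] def charts (hG : Tf G) : ChartedSpace E4 (Φ.M G) :=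
  haveI := Φ.cancel hG
  MulAction.instChartedSpaceQuotient

instance [G.FiniteIndex] : CompactSpace (Φ.M G) := by
  obtain ⟨K, hK, h⟩ := Φ.cocompact
  have : Finite (G0 ρ ⧸ G) := Subgroup.finite_quotient_of_finiteIndex
  refine ⟨(isCompact_iUnion fun q : G0 ρ ⧸ G => (hK.image (continuous_const_smul q.out⁻¹)).image
    (continuous_quotient_mk' (s := orbitRel G Φ.Mt))).of_isClosed_subset isClosed_univ ?_⟩
  rintro ⟨m⟩ -
  obtain ⟨g, hg⟩ := h m
  obtain ⟨k, hk⟩ := QuotientGroup.mk_out_eq_mul G g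
  refine mem_iUnion.2 ⟨g, _, ⟨_, hg, rfl⟩, Quotient.sound ⟨k⁻¹, ?_⟩⟩
  change (k⁻¹ : G).1 • m = _ • g • m
  rw [hk, smul_smul]
  simp






end Fill

end Crest.Agent.N233

end
end

-- ▼ part N233/Dv/Top

/-!
# Row 233 (helper43): torsion free subgroups, lifts, realisation of isomorphisms, reduction of the row
-/

set_option autoImplicit false
open Set Filter Topology unitInterval

noncomputable section

namespace Crest.Agent.N233

open Crest.Agent.N255.Ra MulAction Dv

section abs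
variable {G G' A B : Type} [Group G] [Group G'] [TopologicalSpace A] [TopologicalSpace B]
  [MulAction G A] [MulAction G' B]


variable [T2Space A] [LocallyCompactSpace A] [ContinuousConstSMul G A] [ProperlyDiscontinuousSMul G A]
  [T2Space B] [LocallyCompactSpace B] [ContinuousConstSMul G' B] [ProperlyDiscontinuousSMul G' B]






end abs

variable {S : Type} {Γ : SimpleGraph S} {F : Type} [Group F] {ρ : F →* (Γ ≃g Γ)}

theorem Tf.mono {G G' : Subgroup (G0 ρ)} (h : Tf G) (hle : G' ≤ G) : Tf G' := fun g hg => h g (hle hg)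

/-- an invariant proper colouring with finitely many colours -/
structure Col (ρ : F →* (Γ ≃g Γ)) where
  K : Type
  [fin : Finite K]
  κ : S → K
  adj : ∀ s t, Γ.Adj s t → κ s ≠ κ t
  inv : ∀ f s, κ (ρ f s) = κ s

namespace Col
variable (C : Col ρ)

open Classical in
/-- the colour parity character -/
def χ : W Γ →* Multiplicative (C.K → ZMod 2) :=
  lift (fun s => Multiplicative.ofAdd (Pi.single (C.κ s) 1))
    (fun s => by
      rw [← ofAdd_add, ← Pi.single_add, show (1 : ZMod 2) + 1 = 0 from rfl, Pi.single_zero]; rfl)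
    fun _ _ _ => Commute.all _ _

theorem χ_aut (f : F) (w : W Γ) : C.χ (aut (ρ f) w) = C.χ w :=
  DFunLike.congr_fun (hom_ext (φ := C.χ.comp (aut (ρ f)).toMonoidHom) (ψ := C.χ) fun s => by
    simp [χ, C.inv]) w

/-- the colour parity character of the big group -/
def χ0 : G0 ρ →* Multiplicative (C.K → ZMod 2) :=
  MonoidHom.mk' (fun g => C.χ g.left) fun a b => by
    rw [SemidirectProduct.mul_left, map_mul, autHom_apply, χ_aut]

/-- the torsion free subgroup of finite index -/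
def G : Subgroup (G0 ρ) := C.χ0.ker

theorem mem_G {g : G0 ρ} : g ∈ C.G ↔ C.χ g.left = 1 := Iff.rfl

instance : C.G.Normal := MonoidHom.normal_ker _

instance : C.G.FiniteIndex :=
  haveI := C.fin
  Subgroup.finiteIndex_ker _

theorem inr_mem (f : F) : SemidirectProduct.inr f ∈ C.G := C.mem_G.2 (map_one _)

theorem χ_pr [DecidableEq S] {B : Finset S} (hB : Γ.IsClique (B : Set S)) {s : S} (hs : s ∈ B) :
    (C.χ (pr Γ B)).toAdd (C.κ s) = 1 := by
  classical
  have a : ∀ (B : Finset S) (k : C.K), Γ.IsClique (B : Set S) → (∀ t ∈ B, C.κ t ≠ k) →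
      (C.χ (pr Γ B)).toAdd k = 0 := fun B k => by
    induction B using Finset.induction_on with
    | empty => simp
    | insert t B ht ih =>
      intro h1 h2
      rw [pr_insert h1 ht, map_mul, toAdd_mul, Pi.add_apply,
        ih (h1.subset (by simp)) fun u hu => h2 u (by simp [hu])]
      simp [χ, (h2 t (by simp)).symm]
  have e : pr Γ B = pr Γ (B.erase s) * gen Γ s := by rw [pr_erase hB hs, mul_gen_gen]
  rw [e, map_mul, toAdd_mul, Pi.add_apply, a _ _ (hB.subset (by simp)) fun t ht =>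
    C.adj _ _ (hB (Finset.mem_of_mem_erase ht) hs (Finset.ne_of_mem_erase ht))]
  simp [χ]

theorem tf : Tf C.G := fun g hg _ v A hA h => by
  classical
  lift A to Finset S using hA.1
  obtain ⟨B, hB, e⟩ := (mem_WT hA.2).1 h
  have h1 : C.χ (pr Γ B) = 1 := by
    rw [← e, map_mul, map_mul, C.mem_G.1 hg, mul_one, map_inv, inv_mul_cancel]
  rcases B.eq_empty_or_nonempty with rfl | ⟨s, hs⟩
  · rw [pr_empty, conj_iff] at e; simpa using e
  · have := C.χ_pr (hA.2.subset (Finset.coe_subset.2 hB)) hs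
    rw [h1] at this
    exact absurd this (by simp)

end Col

instance [Countable S] : Countable (W Γ) := by
  have : Function.Surjective (Hyp.wr Γ) := fun w => (Hyp.exists_wr w).imp fun _ h => h.1
  exact this.countable

instance [Countable S] [Countable F] : Countable (G0 ρ) :=
  Function.Injective.countable (f := fun g : G0 ρ => (g.left, g.right)) fun _ _ h =>
    SemidirectProduct.ext (congrArg Prod.fst h) (congrArg Prod.snd h)

variable {T : Type} [TopologicalSpace T] [MulAction F T]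

namespace Fill
variable (Φ Φ' : FillG ρ T) {G G' : Subgroup (G0 ρ)}

instance [Countable S] [Countable F] : SigmaCompactSpace Φ.Mt := by
  obtain ⟨K, hK, h⟩ := Φ.cocompact
  refine SigmaCompactSpace.of_countable (range fun g : G0 ρ => (g • ·) '' K) (countable_range _)
    (by rintro _ ⟨g, rfl⟩; exact hK.image (continuous_const_smul g)) (eq_univ_of_forall fun m => ?_)
  obtain ⟨g, hg⟩ := h m
  exact ⟨_, ⟨g⁻¹, rfl⟩, _, hg, inv_smul_smul g m⟩

instance : LocallyPathConnectedSpace Φ.Mt := ChartedSpace.locallyPathConnectedSpace E4 _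

theorem free_G (hG : Tf G) (g : G) (m : Φ.Mt) (h : g • m = m) : g = 1 :=
  isCancelSMul_iff_eq_one_of_smul_eq.1 (Φ.cancel hG) g m h





end Fill

end Crest.Agent.N233

end
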