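import Crest.Agent.N233.Defs

/-!
# Row 233 (helper43): walls of a right angled Coxeter group

`N u` = the reflections whose wall separates `1` from `u`; `dep r` = depth of a wall.
-/

set_option autoImplicit false
open Set

noncomputable section

namespace Crest.Agent.N233.Dv

open Crest.Agent.N255.Ra

variable {S : Type} {Γ : SimpleGraph S}

open Classical in
/-- the generator of the wall cocycle -/
def fl (s : S) (p : W Γ × Bool) : W Γ × Bool :=
  (gen Γ s * p.1 * gen Γ s, xor p.2 (decide (p.1 = gen Γ s)))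

theorem conj_eq {s t : S} (h : Commute (gen Γ s) (gen Γ t)) (r : W Γ) :
    gen Γ s * r * gen Γ s = gen Γ t ↔ r = gen Γ t := by
  constructor
  · intro e
    have : r = gen Γ s * gen Γ t * gen Γ s := by rw [← e]; simp [mul_assoc]
    rw [this, h.eq, mul_gen_gen]
  · rintro rfl
    rw [h.eq, mul_gen_gen]

theorem fl_fl (s : S) (p : W Γ × Bool) : fl s (fl s p) = p := by
  obtain ⟨r, b⟩ := p
  have e := conj_eq (Commute.refl (gen Γ s)) r
  ext
  · simp [fl, mul_assoc]
  · by_cases h : r = gen Γ s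
    · simp [fl, h]
    · simp [fl, h, mt e.1 h]

/-- the generator as a permutation -/
def flP (s : S) : Equiv.Perm (W Γ × Bool) := Function.Involutive.toPerm (fl s) (fl_fl s)

/-- the wall cocycle -/
def eta : W Γ →* Equiv.Perm (W Γ × Bool) :=
  lift flP (fun s => Equiv.ext fun p => fl_fl s p) fun s t h => Equiv.ext fun p => by
    obtain ⟨r, b⟩ := p
    have c := gen_comm h
    change fl s (fl t (r, b)) = fl t (fl s (r, b))
    have e1 := conj_eq c r
    have e2 := conj_eq c.symm r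
    ext
    · change gen Γ s * (gen Γ t * r * gen Γ t) * gen Γ s = gen Γ t * (gen Γ s * r * gen Γ s) * gen Γ t
      calc _ = (gen Γ s * gen Γ t) * r * (gen Γ t * gen Γ s) := by simp only [mul_assoc]
        _ = (gen Γ t * gen Γ s) * r * (gen Γ s * gen Γ t) := by rw [c.eq]
        _ = _ := by simp only [mul_assoc]
    · simp only [fl]
      classical
      rw [decide_eq_decide.2 e1, decide_eq_decide.2 e2, Bool.xor_assoc, Bool.xor_assoc]
      exact congrArg _ (Bool.xor_comm _ _)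

theorem eta_gen (s : S) (p : W Γ × Bool) : eta (gen Γ s) p = fl s p := by
  rw [eta, lift_gen]; rfl

theorem eta_apply (u : W Γ) : ∀ r b, eta u (r, b) = (u * r * u⁻¹, xor b (eta u (r, false)).2) := by
  refine ind_right u (fun r b => by simp) fun w s ih r b => ?_
  simp only [map_mul, Equiv.Perm.mul_apply, eta_gen, fl]
  rw [ih, ih _ (xor false _)]
  simp [mul_assoc]

/-- the walls between `1` and `u` -/
def N (u : W Γ) : Set (W Γ) := {r | (eta u⁻¹ (r, false)).2 = true}

variable {u v r : W Γ} {s t : S}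

theorem mem_N_mul : r ∈ N (u * v) ↔ ¬(r ∈ N u ↔ u⁻¹ * r * u ∈ N v) := by
  simp only [N, mem_ofPred, mul_inv_rev, map_mul, Equiv.Perm.mul_apply]
  rw [eta_apply u⁻¹, eta_apply v⁻¹, inv_inv]
  cases (eta u⁻¹ (r, false)).2 <;> cases (eta v⁻¹ (u⁻¹ * r * u, false)).2 <;> simp

@[simp] theorem N_one : N (1 : W Γ) = ∅ := by ext r; simp [N]

@[simp] theorem mem_N_gen : r ∈ N (gen Γ s) ↔ r = gen Γ s := by simp [N, eta_gen, fl]

theorem conj_iff {q : W Γ} : u⁻¹ * r * u = q ↔ r = u * q * u⁻¹ := by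
  constructor <;> rintro rfl <;> simp [mul_assoc]

theorem mem_N_mul_gen : r ∈ N (u * gen Γ s) ↔ ¬(r ∈ N u ↔ r = u * gen Γ s * u⁻¹) := by
  rw [mem_N_mul, mem_N_gen, conj_iff]

theorem mem_N_inv : r ∈ N u⁻¹ ↔ u * r * u⁻¹ ∈ N u := by
  have := @mem_N_mul S Γ u⁻¹ u r
  rw [inv_mul_cancel, N_one, inv_inv] at this
  simpa using this

theorem len_lt (h : r ∈ N u) : len (r * u) < len u := by
  induction u using ind_red with
  | one => simp at h
  | mul w s hs ih =>
    rw [mem_N_mul_gen] at h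
    rw [len_nmem hs]
    by_cases e : r = w * gen Γ s * w⁻¹
    · rw [e]; simp [mul_assoc]
    · have h1 := ih (by tauto)
      have h2 := len_mul_le (r * w) (gen Γ s)
      rw [len_gen] at h2
      rw [← mul_assoc]; omega

theorem last_mem_N : u * gen Γ s * u⁻¹ ∈ N u ↔ s ∈ In u := by
  have a : ∀ u : W Γ, u * gen Γ s * u⁻¹ ∈ N u → s ∈ In u := fun u h => by
    have := len_lt h
    rwa [inv_mul_cancel_right] at this
  refine ⟨a u, fun h => ?_⟩
  have h1 : s ∉ In (u * gen Γ s) := fun h' => mem_In_mul_self.1 h' h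
  have h2 := mt (a (u * gen Γ s)) h1
  rw [mem_N_mul_gen] at h2
  simpa [mul_assoc] using h2

theorem gen_mem_N : gen Γ s ∈ N u ↔ s ∈ Init u := by
  rw [Init_eq, ← last_mem_N, mem_N_inv]; simp [mul_assoc]


theorem mem_WT_of_N {A : Set S} (h : N v ⊆ gen Γ '' A) : v ∈ WT Γ A := by
  induction hn : len v generalizing v with
  | zero => rw [len_eq_zero.1 hn]; exact one_mem _
  | succ n ih =>
    have : v⁻¹ ≠ 1 := fun e => by
      rw [inv_eq_one.1 e, len_one] at hn; omega
    obtain ⟨s, hs⟩ := In_nonempty this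
    rw [← Init_eq] at hs
    obtain ⟨a, ha, e⟩ := h (gen_mem_N.2 hs)
    obtain rfl := gen_injective e
    have := len_mem' hs
    have h2 : gen Γ a * v ∈ WT Γ A := ih (fun r hr => ?_) (by omega)
    · simpa using mul_mem (gen_mem_WT ha) h2
    rw [mem_N_mul, mem_N_gen, gen_inv] at hr
    by_cases e1 : r = gen Γ a
    · exact ⟨a, ha, e1.symm⟩
    · have h3 : gen Γ a * r * gen Γ a ∈ N v := by tauto
      obtain ⟨b, hb, e2⟩ := h h3
      rw [← e2, gen_mem_N] at h3
      exact ⟨b, hb, ((conj_eq (gen_comm' fun n => Init_clique v hs h3 n) r).1 e2.symm).symm⟩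

theorem conj_WT {A : Set S} (hA : Γ.IsClique A) (hu : u ∈ WT Γ A) (hs : s ∈ A) :
    u * gen Γ s * u⁻¹ = gen Γ s := by
  rw [← (comm_WT (fun t ht n => hA hs ht n) hu).eq, mul_inv_cancel_right]

theorem N_sub_of_WT {A : Set S} (hA : Γ.IsClique A) (hu : u ∈ WT Γ A) : N u ⊆ gen Γ '' A := by
  induction hu using Subgroup.closure_induction_right with
  | one => simp
  | mul_right x hx y hy ih =>
    obtain ⟨s, hs, rfl⟩ := hy
    intro r hr
    rw [mem_N_mul_gen, conj_WT hA hx hs] at hr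
    by_cases e : r = gen Γ s
    · exact ⟨s, hs, e.symm⟩
    · exact ih (by tauto)
  | mul_inv_cancel x hx y hy ih =>
    obtain ⟨s, hs, rfl⟩ := hy
    intro r hr
    rw [gen_inv, mem_N_mul_gen, conj_WT hA hx hs] at hr
    by_cases e : r = gen Γ s
    · exact ⟨s, hs, e.symm⟩
    · exact ih (by tauto)

theorem mem_N_aut (φ : Γ ≃g Γ) (u : W Γ) : ∀ r, aut φ r ∈ N (aut φ u) ↔ r ∈ N u := by
  refine ind_right u (by simp) fun w s ih r => ?_
  rw [map_mul, aut_gen, mem_N_mul_gen, mem_N_mul_gen, ih, ← aut_gen, ← map_inv, ← map_mul, ← map_mul,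
    (aut φ).apply_eq_iff_eq]

theorem gen_mem_N_pr [DecidableEq S] {σ : Finset S} (hσ : Γ.IsClique (σ : Set S)) :
    gen Γ s ∈ N (pr Γ σ) ↔ s ∈ σ := by
  rw [gen_mem_N, Init_eq, pr_inv hσ, In_pr hσ, Finset.mem_coe]

/-- the depth of a wall -/
def dep (r : W Γ) : ℕ := sInf {n | ∃ v, r ∈ N v ∧ len v = n}

theorem dep_le (h : r ∈ N v) : dep r ≤ len v := Nat.sInf_le ⟨v, h, rfl⟩

theorem exists_dep (h : r ∈ N v) : ∃ w, r ∈ N w ∧ len w = dep r :=
  Nat.sInf_mem (s := {n | ∃ v, r ∈ N v ∧ len v = n}) ⟨_, v, h, rfl⟩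

theorem dep_pos (h : r ∈ N v) : 0 < dep r := by
  obtain ⟨w, h1, h2⟩ := exists_dep h
  by_contra e
  rw [len_eq_zero.1 (by omega : len w = 0)] at h1
  simp at h1

theorem dep_key (hs : s ∈ In u) (ht : t ∉ In u) (hn : ¬Γ.Adj s t) :
    dep (u * gen Γ s * u⁻¹) < dep (u * gen Γ t * u⁻¹) := by
  have hst : s ≠ t := fun e => ht (e ▸ hs)
  have h0 : u * gen Γ t * u⁻¹ ∈ N (u * gen Γ t) := by
    rw [mem_N_mul_gen, last_mem_N]; tauto
  obtain ⟨v, h1, h2⟩ := exists_dep h0
  have h3 : u * gen Γ s * u⁻¹ ∈ N v := by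
    by_contra h4
    have e : v = u * (u⁻¹ * v) := by simp
    rw [e, mem_N_mul, last_mem_N] at h1 h4
    simp only [mul_assoc, inv_mul_cancel, mul_one, inv_mul_cancel_left, gen_mem_N] at h1 h4
    exact hn (Init_clique (u⁻¹ * v) (by tauto) (by tauto) hst)
  obtain ⟨a, ha⟩ := In_nonempty (w := v) (by rintro rfl; simp at h1)
  have h5 := len_mem ha
  have h6 : u * gen Γ t * u⁻¹ ∉ N (v * gen Γ a) := fun h => by have := dep_le h; omega
  have h7 : u * gen Γ s * u⁻¹ ∈ N (v * gen Γ a) := by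
    rw [mem_N_mul_gen] at h6 ⊢
    have e : u * gen Γ t * u⁻¹ = v * gen Γ a * v⁻¹ := by tauto
    rw [← e]
    have : u * gen Γ s * u⁻¹ ≠ u * gen Γ t * u⁻¹ := by
      simpa using fun e => hst (gen_injective e)
    tauto
  have := dep_le h7
  omega

theorem last_mul_adj (h : Γ.Adj t s) :
    u * gen Γ t * gen Γ s * (u * gen Γ t)⁻¹ = u * gen Γ s * u⁻¹ := by
  rw [mul_assoc u, (gen_comm h).eq]; simp [mul_assoc]

/-- a wall of `u` is a last wall or lies above one -/
theorem exists_last (h : r ∈ N u) :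
    ∃ s ∈ In u, r = u * gen Γ s * u⁻¹ ∨ dep r < dep (u * gen Γ s * u⁻¹) := by
  induction u using ind_red with
  | one => simp at h
  | mul w t ht ih =>
    have e0 : w * gen Γ t * gen Γ t * (w * gen Γ t)⁻¹ = w * gen Γ t * w⁻¹ := by simp [mul_assoc]
    by_cases e : r = w * gen Γ t * w⁻¹
    · exact ⟨t, mem_In_mul_self.2 ht, Or.inl (by rw [e0, e])⟩
    rw [mem_N_mul_gen] at h
    obtain ⟨s, hs, h1⟩ := ih (by tauto)
    by_cases a : Γ.Adj t s
    · exact ⟨s, (mem_In_mul_adj a).2 hs, by rwa [last_mul_adj a]⟩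
    · have := dep_key hs ht fun h => a h.symm
      refine ⟨t, mem_In_mul_self.2 ht, Or.inr ?_⟩
      rw [e0]
      rcases h1 with rfl | h1 <;> omega

end Crest.Agent.N233.Dv

end
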